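import Mathlib
import Vale.Agent.Lib.P052.Data

namespace Vale.Agent.Lib.P052

/-- Entry `(j, i)` of the shifted matrix: digit `i` of the packed row `j`. -/
def dg (j i : ℕ) : ℕ := rowP j / 262144 ^ i % 262144

/-- The packed all-ones row. -/
def allOnes : ℕ := ∑ s ∈ Finset.range 416, 262144 ^ s

/-- All entries of row `j` are at most `18`. -/
def pA (j : ℕ) : Bool := (List.range 416).all (fun i => Nat.ble (dg j i) 18)

/-- Row `j` of the identity for the square of the shifted matrix, in packed form. -/
def pB (j : ℕ) : Bool :=
  Nat.beq (∑ i ∈ Finset.range 416, dg j i * rowP i) (96 * rowP j + 3456 * allOnes)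

/-- Symmetry of the entries of row `j` left of the diagonal. -/
def pC (j : ℕ) : Bool := (List.range j).all (fun i => Nat.beq (dg j i) (dg i j))

end Vale.Agent.Lib.P052
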