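import Mathlib

namespace Vale.Agent.Lib.P052

/-- Base `B` expansion of a number below `B ^ k`. -/
theorem digit_expand (B : ℕ) (k : ℕ) : ∀ n : ℕ, n < B ^ k →
    n = ∑ s ∈ Finset.range k, (n / B ^ s % B) * B ^ s := by
  induction k with
  | zero =>
    intro n hn
    simp at hn
    simp [hn]
  | succ k ih =>
    intro n hn
    have hB : 0 < B := by
      rcases Nat.eq_zero_or_pos B with h | h
      · subst h
        simp at hn
      · exact h
    have h1 : n / B < B ^ k := by
      rw [Nat.div_lt_iff_lt_mul hB]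
      calc n < B ^ (k + 1) := hn
        _ = B ^ k * B := pow_succ B k
    have h2 := ih (n / B) h1
    rw [Finset.sum_range_succ']
    have h3 : ∑ s ∈ Finset.range k, (n / B ^ (s + 1) % B) * B ^ (s + 1)
        = B * ∑ s ∈ Finset.range k, (n / B / B ^ s % B) * B ^ s := by
      rw [Finset.mul_sum]
      refine Finset.sum_congr rfl fun s _ => ?_
      rw [Nat.div_div_eq_div_mul, pow_succ']
      ring
    rw [h3, ← h2]
    simp only [pow_zero, Nat.div_one, mul_one]
    exact (Nat.div_add_mod n B).symm

/-- Uniqueness of base `B` digits. -/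
theorem digit_uniq (B : ℕ) (k : ℕ) : ∀ c d : ℕ → ℕ, (∀ s < k, c s < B) → (∀ s < k, d s < B) →
    ∑ s ∈ Finset.range k, c s * B ^ s = ∑ s ∈ Finset.range k, d s * B ^ s →
    ∀ s < k, c s = d s := by
  induction k with
  | zero => intro c d _ _ _ s hs; omega
  | succ k ih =>
    intro c d hc hd h s hs
    rw [Finset.sum_range_succ', Finset.sum_range_succ'] at h
    have e1 : ∀ f : ℕ → ℕ, ∑ s ∈ Finset.range k, f (s + 1) * B ^ (s + 1)
        = B * ∑ s ∈ Finset.range k, f (s + 1) * B ^ s := by
      intro f
      rw [Finset.mul_sum]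
      refine Finset.sum_congr rfl fun s _ => ?_
      rw [pow_succ']
      ring
    rw [e1 c, e1 d] at h
    simp only [pow_zero, mul_one] at h
    have hc0 := hc 0 (Nat.succ_pos k)
    have hd0 := hd 0 (Nat.succ_pos k)
    have hB : 0 < B := lt_of_le_of_lt (Nat.zero_le _) hc0
    have h0 : c 0 = d 0 := by
      have := congrArg (· % B) h
      simp only [Nat.mul_add_mod] at this
      rwa [Nat.mod_eq_of_lt hc0, Nat.mod_eq_of_lt hd0] at this
    have h1 : ∑ s ∈ Finset.range k, c (s + 1) * B ^ s = ∑ s ∈ Finset.range k, d (s + 1) * B ^ s := by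
      rw [h0] at h
      have := Nat.add_right_cancel h
      exact Nat.eq_of_mul_eq_mul_left hB this
    rcases s with _ | s
    · exact h0
    · exact ih (fun s => c (s + 1)) (fun s => d (s + 1)) (fun s hs => hc (s + 1) (by omega))
        (fun s hs => hd (s + 1) (by omega)) h1 s (by omega)

/-- Bounded quantification from a Boolean check. -/
theorem all_range {n : ℕ} {p : ℕ → Bool} (h : (List.range n).all p = true) :
    ∀ i < n, p i = true := by
  intro i hi
  rw [List.all_eq_true] at h
  exact h i (List.mem_range.2 hi)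

/-- Bounded quantification from a Boolean check on an interval. -/
theorem all_range' {p : ℕ → Bool} {a l : ℕ} (h : (List.range' a l).all p = true) (v : ℕ)
    (h1 : a ≤ v) (h2 : v < a + l) : p v = true := by
  rw [List.all_eq_true] at h
  exact h v (List.mem_range'_1.2 ⟨h1, h2⟩)

/-- The sum of the base `B + 1` digits modulo `B`. -/
theorem digit_sum_mod (B : ℕ) (d : ℕ → ℕ) (k : ℕ) :
    (∑ s ∈ Finset.range k, d s * (B + 1) ^ s) % B = (∑ s ∈ Finset.range k, d s) % B := by
  induction k with
  | zero => simp
  | succ k ih =>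
    rw [Finset.sum_range_succ, Finset.sum_range_succ, Nat.add_mod, ih, Nat.mul_mod, Nat.pow_mod]
    have h1 : (B + 1) % B = 1 % B := by simp
    rw [h1, ← Nat.pow_mod, one_pow, ← Nat.mul_mod, mul_one, ← Nat.add_mod]

end Vale.Agent.Lib.P052
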