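import Mathlib
import Vale.Agent.Lib.P052.Defs
import Vale.Agent.Lib.P052.Digits

namespace Vale.Agent.Lib.P052

theorem chkB_0 : (List.range' 0 26).all pB = true := by decide +kernel

theorem chkB_1 : (List.range' 26 26).all pB = true := by decide +kernel

theorem chkB_2 : (List.range' 52 26).all pB = true := by decide +kernel

theorem chkB_3 : (List.range' 78 26).all pB = true := by decide +kernel

theorem chkB_4 : (List.range' 104 26).all pB = true := by decide +kernel

theorem chkB_5 : (List.range' 130 26).all pB = true := by decide +kernel

theorem chkB_6 : (List.range' 156 26).all pB = true := by decide +kernel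

theorem chkB_7 : (List.range' 182 26).all pB = true := by decide +kernel

theorem chkB_8 : (List.range' 208 26).all pB = true := by decide +kernel

theorem chkB_9 : (List.range' 234 26).all pB = true := by decide +kernel

theorem chkB_10 : (List.range' 260 26).all pB = true := by decide +kernel

theorem chkB_11 : (List.range' 286 26).all pB = true := by decide +kernel

theorem chkB_12 : (List.range' 312 26).all pB = true := by decide +kernel

theorem chkB_13 : (List.range' 338 26).all pB = true := by decide +kernel

theorem chkB_14 : (List.range' 364 26).all pB = true := by decide +kernel

theorem chkB_15 : (List.range' 390 26).all pB = true := by decide +kernel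

theorem pB_all (v : ℕ) (hv : v < 416) : pB v = true := by
  by_cases h0 : v < 26
  · exact all_range' chkB_0 v (by omega) (by omega)
  by_cases h1 : v < 52
  · exact all_range' chkB_1 v (by omega) (by omega)
  by_cases h2 : v < 78
  · exact all_range' chkB_2 v (by omega) (by omega)
  by_cases h3 : v < 104
  · exact all_range' chkB_3 v (by omega) (by omega)
  by_cases h4 : v < 130
  · exact all_range' chkB_4 v (by omega) (by omega)
  by_cases h5 : v < 156
  · exact all_range' chkB_5 v (by omega) (by omega)
  by_cases h6 : v < 182
  · exact all_range' chkB_6 v (by omega) (by omega)
  by_cases h7 : v < 208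
  · exact all_range' chkB_7 v (by omega) (by omega)
  by_cases h8 : v < 234
  · exact all_range' chkB_8 v (by omega) (by omega)
  by_cases h9 : v < 260
  · exact all_range' chkB_9 v (by omega) (by omega)
  by_cases h10 : v < 286
  · exact all_range' chkB_10 v (by omega) (by omega)
  by_cases h11 : v < 312
  · exact all_range' chkB_11 v (by omega) (by omega)
  by_cases h12 : v < 338
  · exact all_range' chkB_12 v (by omega) (by omega)
  by_cases h13 : v < 364
  · exact all_range' chkB_13 v (by omega) (by omega)
  by_cases h14 : v < 390
  · exact all_range' chkB_14 v (by omega) (by omega)
  exact all_range' chkB_15 v (by omega) (by omega)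

end Vale.Agent.Lib.P052
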