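import Mathlib
import Vale.Agent.Lib.P052.Defs
import Vale.Agent.Lib.P052.Digits

namespace Vale.Agent.Lib.P052

theorem chkC_0 : (List.range' 0 132).all pC = true := by decide +kernel

theorem chkC_1 : (List.range' 132 55).all pC = true := by decide +kernel

theorem chkC_2 : (List.range' 187 42).all pC = true := by decide +kernel

theorem chkC_3 : (List.range' 229 35).all pC = true := by decide +kernel

theorem chkC_4 : (List.range' 264 31).all pC = true := by decide +kernel

theorem chkC_5 : (List.range' 295 28).all pC = true := by decide +kernel

theorem chkC_6 : (List.range' 323 26).all pC = true := by decide +kernel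

theorem chkC_7 : (List.range' 349 24).all pC = true := by decide +kernel

theorem chkC_8 : (List.range' 373 22).all pC = true := by decide +kernel

theorem chkC_9 : (List.range' 395 21).all pC = true := by decide +kernel

theorem pC_all (v : ℕ) (hv : v < 416) : pC v = true := by
  by_cases h0 : v < 132
  · exact all_range' chkC_0 v (by omega) (by omega)
  by_cases h1 : v < 187
  · exact all_range' chkC_1 v (by omega) (by omega)
  by_cases h2 : v < 229
  · exact all_range' chkC_2 v (by omega) (by omega)
  by_cases h3 : v < 264
  · exact all_range' chkC_3 v (by omega) (by omega)
  by_cases h4 : v < 295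
  · exact all_range' chkC_4 v (by omega) (by omega)
  by_cases h5 : v < 323
  · exact all_range' chkC_5 v (by omega) (by omega)
  by_cases h6 : v < 349
  · exact all_range' chkC_6 v (by omega) (by omega)
  by_cases h7 : v < 373
  · exact all_range' chkC_7 v (by omega) (by omega)
  by_cases h8 : v < 395
  · exact all_range' chkC_8 v (by omega) (by omega)
  exact all_range' chkC_9 v (by omega) (by omega)

end Vale.Agent.Lib.P052
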