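import Mathlib
import Vale.Agent.Lib.P052.Defs

namespace Vale.Agent.Lib.P052

theorem chkD1 : (List.range 416).all (fun j => Nat.beq (rowP j % 262143) 1248) = true := by
  decide +kernel

end Vale.Agent.Lib.P052
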