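import Mathlib
import Vale.Agent.Lib.P052.Data

namespace Vale.Agent.Lib.P052

/-- Adjacency of the graph on the indices `0, ..., 320`. -/
def adjB (a b : ℕ) : Bool := Nat.testBit adjBig (321 * a + b)

/-- A set of indices that are pairwise adjacent. -/
def IsCl (s : Finset ℕ) : Prop := ∀ a ∈ s, ∀ b ∈ s, a ≠ b → adjB a b = true

/-- A table used to find the index of a bit from its residue modulo `347`. -/
def pickTbl : ℕ :=
  4428992059468084293277769611232495390020912367619054228657573374006754900764390599603587151345264704952248783225855640113367934825459250561894532054466709720595946526719994017830759747035739039221393344394477187412386829076831810242257324532223834859868330575869734856906095126224899942861752035087147311565630841202234885917989687292336673851347806804575254531641041274185353184491922541306217984083099276094223711611534928105202058634688651141023025208047855663029258850681185978104914257409281437701323176186151163093180521189556344614982188872465296886775325873091616651979178222213280242099868395238255333600644747189973176744378914153639896473065505121194351725891639254063815735421507078282896463945945163543246239890702633641434544245009967302515988718654011650895683883649472263548960626464201810515140555021541840828353738765244582952822283167791773256626283561129719754170289348608923656763115325074940716203963411174553163137024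

/-- An index chosen from the bit set `mask` (in fact its lowest element; the soundness proofs do not
use this). -/
noncomputable def pick (mask : ℕ) : ℕ :=
  Nat.land (Nat.shiftRight pickTbl
    (Nat.mul 9 (Nat.mod (Nat.sub mask (Nat.land mask (Nat.sub mask 1))) 347))) 511

/-- Loop over the elements `v` of the bit set `mask`, calling `g` on the part of the rest of the
mask adjacent to `v`. -/
noncomputable def loopC (g : ℕ → Bool) (f : ℕ) : ℕ → Bool :=
  Nat.rec (motive := fun _ => ℕ → Bool) (fun mask => Nat.beq mask 0)
    (fun _ ih mask =>
      cond (Nat.beq mask 0) true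
        (and (g (Nat.land (Nat.xor mask (Nat.pow 2 (pick mask)))
            (Nat.shiftRight adjBig (Nat.mul 321 (pick mask)))))
          (ih (Nat.xor mask (Nat.pow 2 (pick mask)))))) f

/-- `noCl k mask = true` certifies that the bit set `mask` contains no clique of size `k`. -/
noncomputable def noCl (k : ℕ) : ℕ → Bool :=
  Nat.rec (motive := fun _ => ℕ → Bool) (fun _ => false) (fun _ ih mask => loopC ih 321 mask) k

theorem loopC_sound (g : ℕ → Bool) (k : ℕ)
    (hg : ∀ mask, g mask = true → ∀ s : Finset ℕ, (∀ i ∈ s, mask.testBit i = true) → IsCl s →
      s.card ≠ k) :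
    ∀ f mask, loopC g f mask = true → ∀ s : Finset ℕ, (∀ i ∈ s, mask.testBit i = true) →
      IsCl s → s.card ≠ k + 1 := by
  intro f
  induction f with
  | zero =>
    intro mask h s hs _ hcard
    have h0 : mask = 0 := Nat.eq_of_beq_eq_true h
    subst h0
    have hne : s.Nonempty := by
      rw [← Finset.card_pos]; omega
    obtain ⟨i, hi⟩ := hne
    have := hs i hi
    simp at this
  | succ f ih =>
    intro mask h s hs hcl hcard
    have hstep : loopC g (f + 1) mask = cond (Nat.beq mask 0) true
        (and (g (Nat.land (Nat.xor mask (Nat.pow 2 (pick mask)))
            (Nat.shiftRight adjBig (Nat.mul 321 (pick mask)))))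
          (loopC g f (Nat.xor mask (Nat.pow 2 (pick mask))))) := rfl
    rw [hstep] at h
    have hne : s.Nonempty := by
      rw [← Finset.card_pos]; omega
    cases hb : Nat.beq mask 0 with
    | true =>
      have h0 : mask = 0 := Nat.eq_of_beq_eq_true hb
      subst h0
      obtain ⟨i, hi⟩ := hne
      have := hs i hi
      simp at this
    | false =>
      rw [hb] at h
      simp only [cond_false, Bool.and_eq_true] at h
      obtain ⟨h1, h2⟩ := h
      set v := pick mask with hv
      have hx : ∀ i ∈ s, i ≠ v → (Nat.xor mask (Nat.pow 2 v)).testBit i = true := by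
        intro i hi hiv
        change (mask ^^^ 2 ^ v).testBit i = true
        rw [Nat.testBit_xor, hs i hi, Nat.testBit_two_pow]
        simp [Ne.symm hiv]
      by_cases hvs : v ∈ s
      · refine hg _ h1 (s.erase v) ?_ ?_ ?_
        · intro i hi
          rw [Finset.mem_erase] at hi
          change ((Nat.xor mask (Nat.pow 2 v)) &&& (adjBig >>> (321 * v))).testBit i = true
          rw [Nat.testBit_and, hx i hi.2 hi.1, Nat.testBit_shiftRight]
          simpa [adjB] using hcl v hvs i hi.2 (Ne.symm hi.1)
        · intro a ha b hb' hab
          exact hcl a (Finset.mem_of_mem_erase ha) b (Finset.mem_of_mem_erase hb') hab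
        · rw [Finset.card_erase_of_mem hvs, hcard]; rfl
      · refine ih _ h2 s ?_ hcl hcard
        intro i hi
        exact hx i hi (fun h => hvs (h ▸ hi))

theorem noCl_sound (k : ℕ) : ∀ mask, noCl k mask = true → ∀ s : Finset ℕ,
    (∀ i ∈ s, mask.testBit i = true) → IsCl s → s.card ≠ k := by
  induction k with
  | zero =>
    intro mask h
    exact absurd h (by simp [noCl])
  | succ k ih =>
    intro mask h
    have hstep : noCl (k + 1) mask = loopC (noCl k) 321 mask := rfl
    rw [hstep] at h
    exact loopC_sound (noCl k) k ih 321 mask h

/-- The check for cliques with largest element `v`. -/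
noncomputable def topChk (v : ℕ) : Bool :=
  noCl 5 (Nat.land (Nat.sub (Nat.pow 2 v) 1) (Nat.shiftRight adjBig (Nat.mul 321 v)))

theorem no_six (h : ∀ v < 321, topChk v = true) (s : Finset ℕ) (hs : ∀ i ∈ s, i < 321)
    (hcl : IsCl s) : s.card ≠ 6 := by
  intro hcard
  have hne : s.Nonempty := by
    rw [← Finset.card_pos]; omega
  set v := s.max' hne with hv
  have hvs : v ∈ s := Finset.max'_mem s hne
  refine noCl_sound 5 _ (h v (hs v hvs)) (s.erase v) ?_ ?_ ?_
  · intro i hi
    rw [Finset.mem_erase] at hi
    have hlt : i < v := lt_of_le_of_ne (Finset.le_max' s i hi.2) hi.1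
    change ((2 ^ v - 1) &&& (adjBig >>> (321 * v))).testBit i = true
    rw [Nat.testBit_and, Nat.testBit_two_pow_sub_one, Nat.testBit_shiftRight]
    simpa [adjB, hlt] using hcl v hvs i hi.2 (Ne.symm hi.1)
  · intro a ha b hb' hab
    exact hcl a (Finset.mem_of_mem_erase ha) b (Finset.mem_of_mem_erase hb') hab
  · rw [Finset.card_erase_of_mem hvs, hcard]

end Vale.Agent.Lib.P052
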