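import Mathlib
import Vale.Agent.Lib.P052.Defs
import Vale.Agent.Lib.P052.Digits
import Vale.Agent.Lib.P052.Clique

namespace Vale.Agent.Lib.P052

/-- Row `a` of the comparison of the matrix entries with the adjacency bits. -/
def pE (a : ℕ) : Bool := (List.range 321).all (fun b =>
  Nat.ble 2 (dg a b) && (Nat.beq a b || adjB a b || Nat.beq (dg a b) 2))

theorem chkE1_0 : (List.range' 0 20).all pE = true := by decide +kernel

theorem chkE1_1 : (List.range' 20 20).all pE = true := by decide +kernel

theorem chkE1_2 : (List.range' 40 20).all pE = true := by decide +kernel

theorem chkE1_3 : (List.range' 60 20).all pE = true := by decide +kernel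

theorem chkE1_4 : (List.range' 80 20).all pE = true := by decide +kernel

theorem chkE1_5 : (List.range' 100 20).all pE = true := by decide +kernel

theorem chkE1_6 : (List.range' 120 20).all pE = true := by decide +kernel

theorem chkE1_7 : (List.range' 140 20).all pE = true := by decide +kernel

theorem chkE1_8 : (List.range' 160 20).all pE = true := by decide +kernel

theorem chkE1_9 : (List.range' 180 20).all pE = true := by decide +kernel

theorem chkE1_10 : (List.range' 200 20).all pE = true := by decide +kernel

theorem chkE1_11 : (List.range' 220 20).all pE = true := by decide +kernel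

theorem chkE1_12 : (List.range' 240 20).all pE = true := by decide +kernel

theorem chkE1_13 : (List.range' 260 20).all pE = true := by decide +kernel

theorem chkE1_14 : (List.range' 280 20).all pE = true := by decide +kernel

theorem chkE1_15 : (List.range' 300 20).all pE = true := by decide +kernel

theorem chkE1_16 : (List.range' 320 1).all pE = true := by decide +kernel

theorem pE_all (v : ℕ) (hv : v < 321) : pE v = true := by
  by_cases h0 : v < 20
  · exact all_range' chkE1_0 v (by omega) (by omega)
  by_cases h1 : v < 40
  · exact all_range' chkE1_1 v (by omega) (by omega)
  by_cases h2 : v < 60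
  · exact all_range' chkE1_2 v (by omega) (by omega)
  by_cases h3 : v < 80
  · exact all_range' chkE1_3 v (by omega) (by omega)
  by_cases h4 : v < 100
  · exact all_range' chkE1_4 v (by omega) (by omega)
  by_cases h5 : v < 120
  · exact all_range' chkE1_5 v (by omega) (by omega)
  by_cases h6 : v < 140
  · exact all_range' chkE1_6 v (by omega) (by omega)
  by_cases h7 : v < 160
  · exact all_range' chkE1_7 v (by omega) (by omega)
  by_cases h8 : v < 180
  · exact all_range' chkE1_8 v (by omega) (by omega)
  by_cases h9 : v < 200
  · exact all_range' chkE1_9 v (by omega) (by omega)
  by_cases h10 : v < 220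
  · exact all_range' chkE1_10 v (by omega) (by omega)
  by_cases h11 : v < 240
  · exact all_range' chkE1_11 v (by omega) (by omega)
  by_cases h12 : v < 260
  · exact all_range' chkE1_12 v (by omega) (by omega)
  by_cases h13 : v < 280
  · exact all_range' chkE1_13 v (by omega) (by omega)
  by_cases h14 : v < 300
  · exact all_range' chkE1_14 v (by omega) (by omega)
  by_cases h15 : v < 320
  · exact all_range' chkE1_15 v (by omega) (by omega)
  exact all_range' chkE1_16 v (by omega) (by omega)

theorem chkE2 : (List.range 320).all (fun a => Nat.beq (dg a a) 18) = true := by
  decide +kernel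

end Vale.Agent.Lib.P052
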