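import Mathlib
import Vale.Agent.Lib.P052.Clique

namespace Vale.Agent.Lib.P052

theorem cliqueChunk0 : (List.range' 0 128).all topChk = true := by decide +kernel

theorem cliqueChunk1 : (List.range' 128 25).all topChk = true := by decide +kernel

theorem cliqueChunk2 : (List.range' 153 21).all topChk = true := by decide +kernel

theorem cliqueChunk3 : (List.range' 174 12).all topChk = true := by decide +kernel

theorem cliqueChunk4 : (List.range' 186 12).all topChk = true := by decide +kernel

theorem cliqueChunk5 : (List.range' 198 9).all topChk = true := by decide +kernel

theorem cliqueChunk6 : (List.range' 207 9).all topChk = true := by decide +kernel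

theorem cliqueChunk7 : (List.range' 216 8).all topChk = true := by decide +kernel

end Vale.Agent.Lib.P052
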