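import Mathlib
import Vale.Agent.Lib.P052.Clique

namespace Vale.Agent.Lib.P052

theorem cliqueChunk8 : (List.range' 224 8).all topChk = true := by decide +kernel

theorem cliqueChunk9 : (List.range' 232 7).all topChk = true := by decide +kernel

theorem cliqueChunk10 : (List.range' 239 6).all topChk = true := by decide +kernel

theorem cliqueChunk11 : (List.range' 245 6).all topChk = true := by decide +kernel

theorem cliqueChunk12 : (List.range' 251 5).all topChk = true := by decide +kernel

theorem cliqueChunk13 : (List.range' 256 4).all topChk = true := by decide +kernel

theorem cliqueChunk14 : (List.range' 260 5).all topChk = true := by decide +kernel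

theorem cliqueChunk15 : (List.range' 265 5).all topChk = true := by decide +kernel

end Vale.Agent.Lib.P052
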