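import Mathlib
import Vale.Agent.Lib.P052.Clique

namespace Vale.Agent.Lib.P052

theorem cliqueChunk16 : (List.range' 270 4).all topChk = true := by decide +kernel

theorem cliqueChunk17 : (List.range' 274 4).all topChk = true := by decide +kernel

theorem cliqueChunk18 : (List.range' 278 4).all topChk = true := by decide +kernel

theorem cliqueChunk19 : (List.range' 282 4).all topChk = true := by decide +kernel

theorem cliqueChunk20 : (List.range' 286 3).all topChk = true := by decide +kernel

theorem cliqueChunk21 : (List.range' 289 4).all topChk = true := by decide +kernel

theorem cliqueChunk22 : (List.range' 293 3).all topChk = true := by decide +kernel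

theorem cliqueChunk23 : (List.range' 296 3).all topChk = true := by decide +kernel

end Vale.Agent.Lib.P052
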