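import Mathlib
import Vale.Agent.Lib.P052.Clique

namespace Vale.Agent.Lib.P052

theorem cliqueChunk24 : (List.range' 299 3).all topChk = true := by decide +kernel

theorem cliqueChunk25 : (List.range' 302 3).all topChk = true := by decide +kernel

theorem cliqueChunk26 : (List.range' 305 3).all topChk = true := by decide +kernel

theorem cliqueChunk27 : (List.range' 308 3).all topChk = true := by decide +kernel

theorem cliqueChunk28 : (List.range' 311 3).all topChk = true := by decide +kernel

theorem cliqueChunk29 : (List.range' 314 3).all topChk = true := by decide +kernel

theorem cliqueChunk30 : (List.range' 317 3).all topChk = true := by decide +kernel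

theorem cliqueChunk31 : (List.range' 320 1).all topChk = true := by decide +kernel

end Vale.Agent.Lib.P052
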