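import Mathlib
import Vale.Agent.Lib.P052.Digits
import Vale.Agent.Lib.P052.Clique
import Vale.Agent.Lib.P052.CliqueC1
import Vale.Agent.Lib.P052.CliqueC2
import Vale.Agent.Lib.P052.CliqueC3
import Vale.Agent.Lib.P052.CliqueC4

namespace Vale.Agent.Lib.P052

theorem top_all (v : ℕ) (hv : v < 321) : topChk v = true := by
  by_cases h0 : v < 128
  · exact all_range' cliqueChunk0 v (by omega) (by omega)
  by_cases h1 : v < 153
  · exact all_range' cliqueChunk1 v (by omega) (by omega)
  by_cases h2 : v < 174
  · exact all_range' cliqueChunk2 v (by omega) (by omega)
  by_cases h3 : v < 186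
  · exact all_range' cliqueChunk3 v (by omega) (by omega)
  by_cases h4 : v < 198
  · exact all_range' cliqueChunk4 v (by omega) (by omega)
  by_cases h5 : v < 207
  · exact all_range' cliqueChunk5 v (by omega) (by omega)
  by_cases h6 : v < 216
  · exact all_range' cliqueChunk6 v (by omega) (by omega)
  by_cases h7 : v < 224
  · exact all_range' cliqueChunk7 v (by omega) (by omega)
  by_cases h8 : v < 232
  · exact all_range' cliqueChunk8 v (by omega) (by omega)
  by_cases h9 : v < 239
  · exact all_range' cliqueChunk9 v (by omega) (by omega)
  by_cases h10 : v < 245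
  · exact all_range' cliqueChunk10 v (by omega) (by omega)
  by_cases h11 : v < 251
  · exact all_range' cliqueChunk11 v (by omega) (by omega)
  by_cases h12 : v < 256
  · exact all_range' cliqueChunk12 v (by omega) (by omega)
  by_cases h13 : v < 260
  · exact all_range' cliqueChunk13 v (by omega) (by omega)
  by_cases h14 : v < 265
  · exact all_range' cliqueChunk14 v (by omega) (by omega)
  by_cases h15 : v < 270
  · exact all_range' cliqueChunk15 v (by omega) (by omega)
  by_cases h16 : v < 274
  · exact all_range' cliqueChunk16 v (by omega) (by omega)
  by_cases h17 : v < 278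
  · exact all_range' cliqueChunk17 v (by omega) (by omega)
  by_cases h18 : v < 282
  · exact all_range' cliqueChunk18 v (by omega) (by omega)
  by_cases h19 : v < 286
  · exact all_range' cliqueChunk19 v (by omega) (by omega)
  by_cases h20 : v < 289
  · exact all_range' cliqueChunk20 v (by omega) (by omega)
  by_cases h21 : v < 293
  · exact all_range' cliqueChunk21 v (by omega) (by omega)
  by_cases h22 : v < 296
  · exact all_range' cliqueChunk22 v (by omega) (by omega)
  by_cases h23 : v < 299
  · exact all_range' cliqueChunk23 v (by omega) (by omega)
  by_cases h24 : v < 302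
  · exact all_range' cliqueChunk24 v (by omega) (by omega)
  by_cases h25 : v < 305
  · exact all_range' cliqueChunk25 v (by omega) (by omega)
  by_cases h26 : v < 308
  · exact all_range' cliqueChunk26 v (by omega) (by omega)
  by_cases h27 : v < 311
  · exact all_range' cliqueChunk27 v (by omega) (by omega)
  by_cases h28 : v < 314
  · exact all_range' cliqueChunk28 v (by omega) (by omega)
  by_cases h29 : v < 317
  · exact all_range' cliqueChunk29 v (by omega) (by omega)
  by_cases h30 : v < 320
  · exact all_range' cliqueChunk30 v (by omega) (by omega)
  exact all_range' cliqueChunk31 v (by omega) (by omega)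

end Vale.Agent.Lib.P052
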