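import Mathlib

namespace Vale.Agent.Lib.P052

variable {α : Type*} [DecidableEq α]

def Colorable (far : α → α → Prop) (V : Finset α) (m : ℕ) : Prop :=
  ∃ c : α → ℕ, (∀ x ∈ V, c x < m) ∧ ∀ x ∈ V, ∀ y ∈ V, x ≠ y → far x y → c x ≠ c y

def NearClique (far : α → α → Prop) (Q : Finset α) : Prop :=
  ∀ x ∈ Q, ∀ y ∈ Q, x ≠ y → ¬ far x y

lemma col_step (far : α → α → Prop) (V Q : Finset α) (m : ℕ) (hQ : NearClique far Q)
    (h : Colorable far (V \ Q) m) : Colorable far V (m + 1) := by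
  obtain ⟨c, hc1, hc2⟩ := h
  refine ⟨fun x => if x ∈ Q then m else c x, ?_, ?_⟩
  · intro x hx
    by_cases hxQ : x ∈ Q
    · simp [hxQ]
    · simp only [hxQ, if_false]
      have := hc1 x (Finset.mem_sdiff.2 ⟨hx, hxQ⟩)
      omega
  · intro x hx y hy hxy hfar
    by_cases hxQ : x ∈ Q <;> by_cases hyQ : y ∈ Q
    · exact absurd hfar (hQ x hxQ y hyQ hxy)
    · simp only [hxQ, hyQ, if_true, if_false]
      have := hc1 y (Finset.mem_sdiff.2 ⟨hy, hyQ⟩)
      omega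
    · simp only [hxQ, hyQ, if_true, if_false]
      have := hc1 x (Finset.mem_sdiff.2 ⟨hx, hxQ⟩)
      omega
    · simp only [hxQ, hyQ, if_false]
      exact hc2 x (Finset.mem_sdiff.2 ⟨hx, hxQ⟩) y (Finset.mem_sdiff.2 ⟨hy, hyQ⟩) hxy hfar

lemma col_of_card_le (far : α → α → Prop) (V : Finset α) :
    ∀ m : ℕ, V.card ≤ m → Colorable far V m := by
  induction V using Finset.induction_on with
  | empty => intro m _; exact ⟨fun _ => 0, by simp, by simp⟩
  | insert a V ha ih =>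
    intro m hm
    rw [Finset.card_insert_of_notMem ha] at hm
    obtain ⟨k, rfl⟩ : ∃ k, m = k + 1 := ⟨m - 1, by omega⟩
    apply col_step far _ {a} k
    · intro x hx y hy hxy
      simp at hx hy
      exact absurd (hx.trans hy.symm) hxy
    · have : insert a V \ {a} = V := by
        ext x
        simp only [Finset.mem_sdiff, Finset.mem_insert, Finset.mem_singleton]
        constructor
        · rintro ⟨h1 | h1, h2⟩
          · exact absurd h1 h2
          · exact h1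
        · intro h
          exact ⟨Or.inr h, fun h2 => ha (h2 ▸ h)⟩
      rw [this]
      exact ih k (by omega)

lemma nearClique_pair (far : α → α → Prop) (hsymm : ∀ x y, far x y → far y x) (a b : α)
    (h : ¬ far a b) : NearClique far {a, b} := by
  intro x hx y hy hxy hf
  simp only [Finset.mem_insert, Finset.mem_singleton] at hx hy
  rcases hx with rfl | rfl <;> rcases hy with rfl | rfl
  · exact hxy rfl
  · exact h hf
  · exact h (hsymm _ _ hf)
  · exact hxy rfl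

lemma nearClique_triple (far : α → α → Prop) (hsymm : ∀ x y, far x y → far y x) (a b u : α)
    (h1 : ¬ far a b) (h2 : ¬ far a u) (h3 : ¬ far b u) : NearClique far {a, b, u} := by
  intro x hx y hy hxy hf
  simp only [Finset.mem_insert, Finset.mem_singleton] at hx hy
  rcases hx with rfl | rfl | rfl <;> rcases hy with rfl | rfl | rfl
  · exact hxy rfl
  · exact h1 hf
  · exact h2 hf
  · exact h1 (hsymm _ _ hf)
  · exact hxy rfl
  · exact h3 hf
  · exact h2 (hsymm _ _ hf)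
  · exact h3 (hsymm _ _ hf)
  · exact hxy rfl

/-- The hypothesis coming from geometry. -/
def B (far : α → α → Prop) (V : Finset α) (m : ℕ) : Prop :=
  ∀ S ⊆ V, S.card = m + 1 → ∀ a ∈ S, ∀ b ∈ S, a ≠ b →
    ∃ x ∈ S, ∃ y ∈ S, x ≠ y ∧ ¬ far x y ∧ ¬ (x = a ∧ y = b) ∧ ¬ (x = b ∧ y = a)

lemma B_mono (far : α → α → Prop) {V W : Finset α} (m : ℕ) (h : W ⊆ V) (hB : B far V m) :
    B far W m := fun S hS => hB S (hS.trans h)

lemma E2 (far : α → α → Prop) (hsymm : ∀ x y, far x y → far y x) (V : Finset α) (m : ℕ)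
    (hm : 1 ≤ m) (hV : V.card = m + 2) (hB : B far V m) :
    ∃ a ∈ V, ∃ b ∈ V, ∃ c ∈ V, ∃ e ∈ V, a ≠ b ∧ c ≠ e ∧ a ≠ c ∧ a ≠ e ∧ b ≠ c ∧ b ≠ e ∧
      ¬ far a b ∧ ¬ far c e := by
  -- first edge
  obtain ⟨v0, hv0⟩ : V.Nonempty := Finset.card_pos.1 (by omega)
  have hc0 : (V.erase v0).card = m + 1 := by rw [Finset.card_erase_of_mem hv0]; omega
  obtain ⟨a0, ha0, b0, hb0, hab0⟩ := Finset.one_lt_card.1 (by omega : 1 < (V.erase v0).card)
  obtain ⟨a, ha, b, hb, hab, hnab, -, -⟩ := hB _ (Finset.erase_subset _ _) hc0 a0 ha0 b0 hb0 hab0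
  have haV : a ∈ V := Finset.mem_of_mem_erase ha
  have hbV : b ∈ V := Finset.mem_of_mem_erase hb
  -- edge avoiding a
  have hca : (V.erase a).card = m + 1 := by rw [Finset.card_erase_of_mem haV]; omega
  obtain ⟨a1, ha1, b1, hb1, hab1⟩ := Finset.one_lt_card.1 (by omega : 1 < (V.erase a).card)
  obtain ⟨x, hx, y, hy, hxy, hnxy, -, -⟩ := hB _ (Finset.erase_subset _ _) hca a1 ha1 b1 hb1 hab1
  have hxV : x ∈ V := Finset.mem_of_mem_erase hx
  have hyV : y ∈ V := Finset.mem_of_mem_erase hy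
  have hxa : x ≠ a := Finset.ne_of_mem_erase hx
  have hya : y ≠ a := Finset.ne_of_mem_erase hy
  by_cases hxb : x = b
  · -- edge (b, y)
    subst hxb
    have hcb : (V.erase x).card = m + 1 := by rw [Finset.card_erase_of_mem hbV]; omega
    have ha' : a ∈ V.erase x := Finset.mem_erase.2 ⟨hab, haV⟩
    have hy' : y ∈ V.erase x := Finset.mem_erase.2 ⟨hxy.symm, hyV⟩
    obtain ⟨u, hu, v, hv, huv, hnuv, h1, h2⟩ :=
      hB _ (Finset.erase_subset _ _) hcb a ha' y hy' hya.symm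
    have huV : u ∈ V := Finset.mem_of_mem_erase hu
    have hvV : v ∈ V := Finset.mem_of_mem_erase hv
    have hub : u ≠ x := Finset.ne_of_mem_erase hu
    have hvb : v ≠ x := Finset.ne_of_mem_erase hv
    by_cases hau : a = u
    · subst hau
      have hvy : v ≠ y := fun h => h1 ⟨rfl, h⟩
      exact ⟨x, hbV, y, hyV, a, haV, v, hvV, hxy, huv, hub.symm, hvb.symm, hya, hvy.symm,
        hnxy, hnuv⟩
    by_cases hav : a = v
    · subst hav
      have huy : u ≠ y := fun h => h2 ⟨h, rfl⟩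
      exact ⟨x, hbV, y, hyV, u, huV, a, haV, hxy, huv, hub.symm, hvb.symm, huy.symm, hya,
        hnxy, hnuv⟩
    exact ⟨a, haV, x, hbV, u, huV, v, hvV, hab, huv, hau, hav, hub.symm, hvb.symm, hnab, hnuv⟩
  by_cases hyb : y = b
  · subst hyb
    have hnyx : ¬ far y x := fun h => hnxy (hsymm _ _ h)
    have hcb : (V.erase y).card = m + 1 := by rw [Finset.card_erase_of_mem hbV]; omega
    have ha' : a ∈ V.erase y := Finset.mem_erase.2 ⟨hab, haV⟩
    have hx' : x ∈ V.erase y := Finset.mem_erase.2 ⟨hxy, hxV⟩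
    obtain ⟨u, hu, v, hv, huv, hnuv, h1, h2⟩ :=
      hB _ (Finset.erase_subset _ _) hcb a ha' x hx' hxa.symm
    have huV : u ∈ V := Finset.mem_of_mem_erase hu
    have hvV : v ∈ V := Finset.mem_of_mem_erase hv
    have hub : u ≠ y := Finset.ne_of_mem_erase hu
    have hvb : v ≠ y := Finset.ne_of_mem_erase hv
    by_cases hau : a = u
    · subst hau
      have hvx : v ≠ x := fun h => h1 ⟨rfl, h⟩
      exact ⟨y, hbV, x, hxV, a, haV, v, hvV, hxy.symm, huv, hub.symm, hvb.symm, hxa, hvx.symm,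
        hnyx, hnuv⟩
    by_cases hav : a = v
    · subst hav
      have hux : u ≠ x := fun h => h2 ⟨h, rfl⟩
      exact ⟨y, hbV, x, hxV, u, huV, a, haV, hxy.symm, huv, hub.symm, hvb.symm, hux.symm, hxa,
        hnyx, hnuv⟩
    exact ⟨a, haV, y, hbV, u, huV, v, hvV, hab, huv, hau, hav, hub.symm, hvb.symm, hnab, hnuv⟩
  exact ⟨a, haV, b, hbV, x, hxV, y, hyV, hab, hxy, hxa.symm, hya.symm, fun h => hxb h.symm,
    fun h => hyb h.symm, hnab, hnxy⟩


lemma card_sdiff_pair (V : Finset α) (a b : α) (ha : a ∈ V) (hb : b ∈ V) (hab : a ≠ b) :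
    (V \ {a, b}).card + 2 = V.card := by
  have hsub : ({a, b} : Finset α) ⊆ V := by
    intro x hx
    simp only [Finset.mem_insert, Finset.mem_singleton] at hx
    rcases hx with rfl | rfl <;> assumption
  have := Finset.card_sdiff_add_card_eq_card hsub
  rwa [Finset.card_pair hab] at this

lemma card_sdiff_triple (V : Finset α) (a b u : α) (ha : a ∈ V) (hb : b ∈ V) (hu : u ∈ V)
    (hab : a ≠ b) (hau : a ≠ u) (hbu : b ≠ u) :
    (V \ {a, b, u}).card + 3 = V.card := by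
  have hsub : ({a, b, u} : Finset α) ⊆ V := by
    intro x hx
    simp only [Finset.mem_insert, Finset.mem_singleton] at hx
    rcases hx with rfl | rfl | rfl <;> assumption
  have := Finset.card_sdiff_add_card_eq_card hsub
  have h3 : ({a, b, u} : Finset α).card = 3 := Finset.card_eq_three.2 ⟨a, b, u, hab, hau, hbu, rfl⟩
  rwa [h3] at this

lemma mem_sdiff_pair {V : Finset α} {a b x : α} (hx : x ∈ V) (h1 : x ≠ a) (h2 : x ≠ b) :
    x ∈ V \ {a, b} := by
  simp [hx, h1, h2]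

lemma mem_sdiff_triple {V : Finset α} {a b u x : α} (hx : x ∈ V) (h1 : x ≠ a) (h2 : x ≠ b)
    (h3 : x ≠ u) : x ∈ V \ {a, b, u} := by
  simp [hx, h1, h2, h3]

lemma col_one_pair (far : α → α → Prop) (hsymm : ∀ x y, far x y → far y x) (V : Finset α) (m : ℕ)
    (hV : V.card ≤ m + 1) (a b : α) (ha : a ∈ V) (hb : b ∈ V) (hab : a ≠ b) (hn : ¬ far a b) :
    Colorable far V m := by
  have h1 := card_sdiff_pair V a b ha hb hab
  obtain ⟨k, rfl⟩ : ∃ k, m = k + 1 := ⟨m - 1, by omega⟩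
  exact col_step far V _ k (nearClique_pair far hsymm a b hn) (col_of_card_le far _ k (by omega))

lemma col_two_pairs (far : α → α → Prop) (hsymm : ∀ x y, far x y → far y x) (V : Finset α)
    (m : ℕ) (hV : V.card ≤ m + 2) (a b c e : α) (ha : a ∈ V) (hb : b ∈ V) (hc : c ∈ V)
    (he : e ∈ V) (hab : a ≠ b) (hce : c ≠ e) (hac : a ≠ c) (hae : a ≠ e) (hbc : b ≠ c)
    (hbe : b ≠ e) (hn1 : ¬ far a b) (hn2 : ¬ far c e) : Colorable far V m := by
  have h1 := card_sdiff_pair V a b ha hb hab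
  have h2 := card_sdiff_pair (V \ {a, b}) c e (mem_sdiff_pair hc hac.symm hbc.symm)
    (mem_sdiff_pair he hae.symm hbe.symm) hce
  obtain ⟨k, rfl⟩ : ∃ k, m = k + 1 := ⟨m - 1, by omega⟩
  apply col_step far V _ k (nearClique_pair far hsymm a b hn1)
  exact col_one_pair far hsymm _ k (by omega) c e (mem_sdiff_pair hc hac.symm hbc.symm)
    (mem_sdiff_pair he hae.symm hbe.symm) hce hn2

lemma col_three_pairs (far : α → α → Prop) (hsymm : ∀ x y, far x y → far y x) (V : Finset α)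
    (m : ℕ) (hV : V.card ≤ m + 3) (a b c e x y : α) (ha : a ∈ V) (hb : b ∈ V) (hc : c ∈ V)
    (he : e ∈ V) (hx : x ∈ V) (hy : y ∈ V) (hab : a ≠ b) (hce : c ≠ e) (hac : a ≠ c)
    (hae : a ≠ e) (hbc : b ≠ c) (hbe : b ≠ e) (hxy : x ≠ y)
    (hxa : x ≠ a) (hxb : x ≠ b) (hxc : x ≠ c) (hxe : x ≠ e)
    (hya : y ≠ a) (hyb : y ≠ b) (hyc : y ≠ c) (hye : y ≠ e)
    (hn1 : ¬ far a b) (hn2 : ¬ far c e) (hn3 : ¬ far x y) : Colorable far V m := by
  have h1 := card_sdiff_pair V a b ha hb hab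
  have h2 := card_sdiff_pair (V \ {a, b}) c e (mem_sdiff_pair hc hac.symm hbc.symm)
    (mem_sdiff_pair he hae.symm hbe.symm) hce
  obtain ⟨k, rfl⟩ : ∃ k, m = k + 1 := ⟨m - 1, by omega⟩
  apply col_step far V _ k (nearClique_pair far hsymm a b hn1)
  exact col_two_pairs far hsymm _ k (by omega) c e x y (mem_sdiff_pair hc hac.symm hbc.symm)
    (mem_sdiff_pair he hae.symm hbe.symm) (mem_sdiff_pair hx hxa hxb) (mem_sdiff_pair hy hya hyb)
    hce hxy hxc.symm hyc.symm hxe.symm hye.symm hn2 hn3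

lemma col_triangle_pair (far : α → α → Prop) (hsymm : ∀ x y, far x y → far y x) (V : Finset α)
    (m : ℕ) (hV : V.card ≤ m + 3) (a b u c e : α) (ha : a ∈ V) (hb : b ∈ V) (hu : u ∈ V)
    (hc : c ∈ V) (he : e ∈ V) (hab : a ≠ b) (hau : a ≠ u) (hbu : b ≠ u) (hce : c ≠ e)
    (hca : c ≠ a) (hcb : c ≠ b) (hcu : c ≠ u) (hea : e ≠ a) (heb : e ≠ b) (heu : e ≠ u)
    (hn1 : ¬ far a b) (hn2 : ¬ far a u) (hn3 : ¬ far b u) (hn4 : ¬ far c e) :
    Colorable far V m := by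
  have h1 := card_sdiff_triple V a b u ha hb hu hab hau hbu
  have h2 : 0 < (V \ {a, b, u}).card := Finset.card_pos.2 ⟨c, mem_sdiff_triple hc hca hcb hcu⟩
  obtain ⟨k, rfl⟩ : ∃ k, m = k + 1 := ⟨m - 1, by omega⟩
  apply col_step far V _ k (nearClique_triple far hsymm a b u hn1 hn2 hn3)
  exact col_one_pair far hsymm _ k (by omega) c e (mem_sdiff_triple hc hca hcb hcu)
    (mem_sdiff_triple he hea heb heu) hce hn4

lemma E3_step (far : α → α → Prop) (hsymm : ∀ x y, far x y → far y x) (V : Finset α) (m : ℕ)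
    (hV : V.card = m + 3) (hB : B far V m) (out : α → Prop) (t1 t2 o1 o2 : α)
    (ht1 : t1 ∈ V) (ht2 : t2 ∈ V) (ho1 : o1 ∈ V) (ho2 : o2 ∈ V)
    (h12 : t1 ≠ t2) (h13 : t1 ≠ o1) (h14 : t1 ≠ o2) (h23 : t2 ≠ o1) (h24 : t2 ≠ o2)
    (h34 : o1 ≠ o2)
    (hout : ∀ u, u ≠ t1 → u ≠ t2 → u ≠ o1 → u ≠ o2 → out u) :
    (∃ x ∈ V, ∃ y ∈ V, x ≠ y ∧ ¬ far x y ∧ out x ∧ out y) ∨
    (∃ u ∈ V, out u ∧ ¬ far o1 u) ∨ (∃ u ∈ V, out u ∧ ¬ far o2 u) := by
  have hc1 : (V.erase t1).card = m + 2 := by rw [Finset.card_erase_of_mem ht1]; omega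
  have ht2' : t2 ∈ V.erase t1 := Finset.mem_erase.2 ⟨h12.symm, ht2⟩
  have hc2 : ((V.erase t1).erase t2).card = m + 1 := by
    rw [Finset.card_erase_of_mem ht2']; omega
  have hsub : (V.erase t1).erase t2 ⊆ V :=
    (Finset.erase_subset _ _).trans (Finset.erase_subset _ _)
  have mem : ∀ z, z ∈ V → z ≠ t1 → z ≠ t2 → z ∈ (V.erase t1).erase t2 := by
    intro z hz h1 h2
    exact Finset.mem_erase.2 ⟨h2, Finset.mem_erase.2 ⟨h1, hz⟩⟩
  obtain ⟨x, hx, y, hy, hxy, hn, e1, e2⟩ := hB _ hsub hc2 o1 (mem o1 ho1 h13.symm h23.symm)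
    o2 (mem o2 ho2 h14.symm h24.symm) h34
  have hxV := hsub hx
  have hyV := hsub hy
  have hx2 : x ≠ t2 := Finset.ne_of_mem_erase hx
  have hx1 : x ≠ t1 := Finset.ne_of_mem_erase (Finset.mem_of_mem_erase hx)
  have hy2 : y ≠ t2 := Finset.ne_of_mem_erase hy
  have hy1 : y ≠ t1 := Finset.ne_of_mem_erase (Finset.mem_of_mem_erase hy)
  have hn' : ¬ far y x := fun h => hn (hsymm _ _ h)
  by_cases hxo1 : x = o1
  · subst hxo1
    exact Or.inr (Or.inl ⟨y, hyV, hout y hy1 hy2 hxy.symm (fun h => e1 ⟨rfl, h⟩), hn⟩)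
  by_cases hxo2 : x = o2
  · subst hxo2
    exact Or.inr (Or.inr ⟨y, hyV, hout y hy1 hy2 (fun h => e2 ⟨rfl, h⟩) hxy.symm, hn⟩)
  by_cases hyo1 : y = o1
  · subst hyo1
    exact Or.inr (Or.inl ⟨x, hxV, hout x hx1 hx2 hxo1 hxo2, hn'⟩)
  by_cases hyo2 : y = o2
  · subst hyo2
    exact Or.inr (Or.inr ⟨x, hxV, hout x hx1 hx2 hxo1 hxo2, hn'⟩)
  exact Or.inl ⟨x, hxV, y, hyV, hxy, hn, hout x hx1 hx2 hxo1 hxo2, hout y hy1 hy2 hyo1 hyo2⟩

theorem colorable_of_B (far : α → α → Prop) (hsymm : ∀ x y, far x y → far y x) (V : Finset α)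
    (m : ℕ) (hm : 1 ≤ m) (hV : V.card ≤ m + 3) (hB : B far V m) : Colorable far V m := by
  rcases Nat.lt_or_ge m V.card with hlt | hle
  swap
  · exact col_of_card_le far V m hle
  obtain h1 | h2 | h3 : V.card = m + 1 ∨ V.card = m + 2 ∨ V.card = m + 3 := by omega
  · obtain ⟨a0, ha0, b0, hb0, hab0⟩ := Finset.one_lt_card.1 (by omega : 1 < V.card)
    obtain ⟨a, ha, b, hb, hab, hn, -, -⟩ := hB V (Finset.Subset.refl _) h1 a0 ha0 b0 hb0 hab0
    exact col_one_pair far hsymm V m h1.le a b ha hb hab hn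
  · obtain ⟨a, ha, b, hb, c, hc, e, he, hab, hce, hac, hae, hbc, hbe, hn1, hn2⟩ :=
      E2 far hsymm V m hm h2 hB
    exact col_two_pairs far hsymm V m h2.le a b c e ha hb hc he hab hce hac hae hbc hbe hn1 hn2
  · obtain ⟨v0, hv0⟩ : V.Nonempty := Finset.card_pos.1 (by omega)
    have hc0 : (V.erase v0).card = m + 2 := by rw [Finset.card_erase_of_mem hv0]; omega
    obtain ⟨a, ha, b, hb, c, hc, e, he, hab, hce, hac, hae, hbc, hbe, hn1, hn2⟩ :=
      E2 far hsymm (V.erase v0) m hm hc0 (B_mono far m (Finset.erase_subset _ _) hB)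
    replace ha := Finset.mem_of_mem_erase ha
    replace hb := Finset.mem_of_mem_erase hb
    replace hc := Finset.mem_of_mem_erase hc
    replace he := Finset.mem_of_mem_erase he
    set out : α → Prop := fun u => u ≠ a ∧ u ≠ b ∧ u ≠ c ∧ u ≠ e with hout
    have s1 := E3_step far hsymm V m h3 hB out a c b e ha hc hb he hac hab hae hbc.symm hce hbe
      (fun u h1 h2 h3 h4 => ⟨h1, h3, h2, h4⟩)
    have s2 := E3_step far hsymm V m h3 hB out a e b c ha he hb hc hae hab hac hbe.symm hce.symm hbc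
      (fun u h1 h2 h3 h4 => ⟨h1, h3, h4, h2⟩)
    have s3 := E3_step far hsymm V m h3 hB out b c a e hb hc ha he hbc hab.symm hbe hac.symm hce hae
      (fun u h1 h2 h3 h4 => ⟨h3, h1, h2, h4⟩)
    have s4 := E3_step far hsymm V m h3 hB out b e a c hb he ha hc hbe hab.symm hbc hae.symm
      hce.symm hac (fun u h1 h2 h3 h4 => ⟨h3, h1, h4, h2⟩)
    have hcases : (∃ x ∈ V, ∃ y ∈ V, x ≠ y ∧ ¬ far x y ∧ out x ∧ out y) ∨
        ((∃ u ∈ V, out u ∧ ¬ far a u) ∧ (∃ u ∈ V, out u ∧ ¬ far b u)) ∨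
        ((∃ u ∈ V, out u ∧ ¬ far c u) ∧ (∃ u ∈ V, out u ∧ ¬ far e u)) := by
      have aux : ∀ (P0 pa pb pc pe : Prop), (P0 ∨ pb ∨ pe) → (P0 ∨ pb ∨ pc) → (P0 ∨ pa ∨ pe) →
          (P0 ∨ pa ∨ pc) → P0 ∨ (pa ∧ pb) ∨ (pc ∧ pe) := by
        intro P0 pa pb pc pe h1 h2 h3 h4
        rcases h1 with h | h | h
        · exact Or.inl h
        · rcases h4 with g | g | g
          · exact Or.inl g
          · exact Or.inr (Or.inl ⟨g, h⟩)
          · rcases h3 with f | f | f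
            · exact Or.inl f
            · exact Or.inr (Or.inl ⟨f, h⟩)
            · exact Or.inr (Or.inr ⟨g, f⟩)
        · rcases h2 with g | g | g
          · exact Or.inl g
          · rcases h4 with f | f | f
            · exact Or.inl f
            · exact Or.inr (Or.inl ⟨f, g⟩)
            · exact Or.inr (Or.inr ⟨f, h⟩)
          · exact Or.inr (Or.inr ⟨g, h⟩)
      exact aux _ _ _ _ _ s1 s2 s3 s4
    rcases hcases with ⟨x, hx, y, hy, hxy, hn3, ox, oy⟩ | ⟨⟨u, hu, ou, hnu⟩, ⟨w, hw, ow, hnw⟩⟩ |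
      ⟨⟨u, hu, ou, hnu⟩, ⟨w, hw, ow, hnw⟩⟩
    · exact col_three_pairs far hsymm V m h3.le a b c e x y ha hb hc he hx hy hab hce hac hae hbc
        hbe hxy ox.1 ox.2.1 ox.2.2.1 ox.2.2.2 oy.1 oy.2.1 oy.2.2.1 oy.2.2.2 hn1 hn2 hn3
    · by_cases huw : u = w
      · subst huw
        exact col_triangle_pair far hsymm V m h3.le a b u c e ha hb hu hc he hab ou.1.symm
          ou.2.1.symm hce hac.symm hbc.symm ou.2.2.1.symm hae.symm hbe.symm ou.2.2.2.symm
          hn1 hnu hnw hn2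
      · -- pairs (a,u), (b,w), (c,e)
        exact col_three_pairs far hsymm V m h3.le a u b w c e ha hu hb hw hc he ou.1.symm
          ow.2.1.symm hab ow.1.symm ou.2.1 huw hce hac.symm ou.2.2.1.symm hbc.symm ow.2.2.1.symm
          hae.symm ou.2.2.2.symm hbe.symm ow.2.2.2.symm hnu hnw hn2
    · by_cases huw : u = w
      · subst huw
        exact col_triangle_pair far hsymm V m h3.le c e u a b hc he hu ha hb hce ou.2.2.1.symm
          ou.2.2.2.symm hab hac hae ou.1.symm hbc hbe ou.2.1.symm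
          hn2 hnu hnw hn1
      · exact col_three_pairs far hsymm V m h3.le c u e w a b hc hu he hw ha hb ou.2.2.1.symm
          ow.2.2.2.symm hce ow.2.2.1.symm ou.2.2.2 huw hab hac ou.1.symm hae ow.1.symm
          hbc ou.2.1.symm hbe ow.2.1.symm hnu hnw hn1

end Vale.Agent.Lib.P052
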