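import Mathlib

namespace Vale.Agent.Lib.P052

open Module

/-- If the coordinates of all vectors of a subspace `K` of `ℝ^n` are reproduced by inner products
with vectors `t j`, then `dim K ≤ ∑ ‖t j‖²`. -/
theorem finrank_le_of_reproducing {n : ℕ} (K : Submodule ℝ (EuclideanSpace ℝ (Fin n)))
    (t : Fin n → EuclideanSpace ℝ (Fin n))
    (ht : ∀ k ∈ K, ∀ j, inner ℝ (t j) k = k j) :
    (finrank ℝ K : ℝ) ≤ ∑ j, ‖t j‖ ^ 2 := by
  classical
  set b := stdOrthonormalBasis ℝ K with hb
  have hon : Orthonormal ℝ (fun a => (b a : EuclideanSpace ℝ (Fin n))) :=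
    b.orthonormal.comp_linearIsometry K.subtypeₗᵢ
  have h1 : ∀ a, ∑ j, (inner ℝ (t j) (b a : EuclideanSpace ℝ (Fin n))) ^ 2 = 1 := by
    intro a
    have h : ‖(b a : EuclideanSpace ℝ (Fin n))‖ ^ 2 = 1 := by
      rw [hon.1 a]; norm_num
    rw [EuclideanSpace.real_norm_sq_eq] at h
    rw [← h]
    refine Finset.sum_congr rfl fun j _ => ?_
    rw [ht _ (b a).2 j]
  have h2 : ∀ j, ∑ a, (inner ℝ (t j) (b a : EuclideanSpace ℝ (Fin n))) ^ 2 ≤ ‖t j‖ ^ 2 := by
    intro j
    have h := hon.sum_inner_products_le (x := t j) (s := Finset.univ)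
    refine le_trans (le_of_eq ?_) h
    refine Finset.sum_congr rfl fun a _ => ?_
    rw [Real.norm_eq_abs, sq_abs, real_inner_comm]
  calc (finrank ℝ K : ℝ) = ∑ _a : Fin (finrank ℝ K), (1 : ℝ) := by simp
    _ = ∑ a : Fin (finrank ℝ K), ∑ j,
          (inner ℝ (t j) (b a : EuclideanSpace ℝ (Fin n))) ^ 2 := by
        refine Finset.sum_congr rfl fun a _ => (h1 a).symm
    _ = ∑ j, ∑ a : Fin (finrank ℝ K),
          (inner ℝ (t j) (b a : EuclideanSpace ℝ (Fin n))) ^ 2 := Finset.sum_comm
    _ ≤ ∑ j, ‖t j‖ ^ 2 := Finset.sum_le_sum fun j _ => h2 j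

/-- A finite dimensional real inner product space of dimension at most `m` embeds isometrically
and linearly into `ℝ^m`. -/
theorem exists_isometry_of_finrank_le {V : Type*} [NormedAddCommGroup V] [InnerProductSpace ℝ V]
    [FiniteDimensional ℝ V] {m : ℕ} (h : finrank ℝ V ≤ m) :
    Nonempty (V →ₗᵢ[ℝ] EuclideanSpace ℝ (Fin m)) := by
  classical
  set b := stdOrthonormalBasis ℝ V with hb
  set e := EuclideanSpace.basisFun (Fin m) ℝ with he
  set f : V →ₗ[ℝ] EuclideanSpace ℝ (Fin m) :=
    b.toBasis.constr ℝ (fun i => e (Fin.castLE h i)) with hf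
  have hfb : ∀ i, f (b.toBasis i) = e (Fin.castLE h i) := by
    intro i
    rw [hf, Basis.constr_basis]
  have hon : Orthonormal ℝ (f ∘ b.toBasis) := by
    have h1 : (f ∘ b.toBasis) = e ∘ (Fin.castLE h) := by
      funext i
      exact hfb i
    rw [h1]
    exact e.orthonormal.comp _ (Fin.castLE_injective h)
  have hb' : Orthonormal ℝ b.toBasis := by
    rw [OrthonormalBasis.coe_toBasis]
    exact b.orthonormal
  exact ⟨f.isometryOfOrthonormal hb' hon⟩

/-- A symmetric real matrix `R` with `R Rᵀ = c R` and trace `c m` is, up to the factor `c`, the Gram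
matrix of points of `ℝ^m`. -/
theorem exists_points {n m : ℕ} (R : Fin n → Fin n → ℝ) (c : ℝ) (hc : 0 < c)
    (hsym : ∀ i j, R i j = R j i)
    (hidem : ∀ j s, ∑ i, R j i * R s i = c * R j s)
    (htr : ∑ j, R j j = c * m) :
    ∃ P : Fin n → EuclideanSpace ℝ (Fin m), ∀ j s, inner ℝ (P j) (P s) = c * R j s := by
  classical
  set r : Fin n → EuclideanSpace ℝ (Fin n) := fun j => WithLp.toLp 2 (fun i => R j i) with hr
  have hinner : ∀ j s, inner ℝ (r j) (r s) = c * R j s := by
    intro j s
    rw [PiLp.inner_apply, ← hidem j s]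
    refine Finset.sum_congr rfl fun i _ => ?_
    simp [hr, mul_comm]
  set K : Submodule ℝ (EuclideanSpace ℝ (Fin n)) := Submodule.span ℝ (Set.range r) with hK
  set t : Fin n → EuclideanSpace ℝ (Fin n) := fun j => (1 / c) • r j with ht
  have hrep : ∀ k ∈ K, ∀ j, inner ℝ (t j) k = k j := by
    intro k hk j
    induction hk using Submodule.span_induction with
    | mem x hx =>
      obtain ⟨s, rfl⟩ := hx
      rw [ht]
      simp only [inner_smul_left, hinner]
      simp only [hr]
      rw [hsym j s]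
      simp
      field_simp
    | zero => simp
    | add x y _ _ hx hy => rw [inner_add_right, hx, hy]; rfl
    | smul a x _ hx => rw [inner_smul_right, hx]; rfl
  have hdim := finrank_le_of_reproducing K t hrep
  have hsum : ∑ j, ‖t j‖ ^ 2 = m := by
    have h1 : ∀ j, ‖t j‖ ^ 2 = (1 / c) * R j j := by
      intro j
      rw [← real_inner_self_eq_norm_sq, ht]
      simp only [inner_smul_left, inner_smul_right, hinner]
      have hc' : c ≠ 0 := ne_of_gt hc
      simp only [conj_trivial]
      field_simp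
    simp only [h1]
    rw [← Finset.mul_sum, htr]
    field_simp
  rw [hsum] at hdim
  have hdim' : finrank ℝ K ≤ m := by exact_mod_cast hdim
  obtain ⟨f⟩ := exists_isometry_of_finrank_le hdim'
  refine ⟨fun j => f ⟨r j, Submodule.subset_span ⟨j, rfl⟩⟩, fun j s => ?_⟩
  rw [LinearIsometry.inner_map_map, Submodule.coe_inner]
  exact hinner j s

end Vale.Agent.Lib.P052
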