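import Mathlib
import Vale.Agent.Lib.P052.Digits
import Vale.Agent.Lib.P052.Gram
import Vale.Agent.Lib.P052.Defs
import Vale.Agent.Lib.P052.CheckA
import Vale.Agent.Lib.P052.CheckB
import Vale.Agent.Lib.P052.CheckC
import Vale.Agent.Lib.P052.CheckD
import Vale.Agent.Lib.P052.CheckE
import Vale.Agent.Lib.P052.Clique
import Vale.Agent.Lib.P052.CliqueAll

namespace Vale.Agent.Lib.P052

open Finset

theorem row_lt (j : ℕ) (hj : j < 416) : rowP j < 262144 ^ 416 := by
  have h := all_range chkA1 j hj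
  exact Nat.le_of_ble_eq_true h

theorem dg_le (j i : ℕ) (hj : j < 416) (hi : i < 416) : dg j i ≤ 18 :=
  Nat.le_of_ble_eq_true (all_range (pA_all j hj) i hi)

theorem dg_symm (j i : ℕ) (hj : j < 416) (hi : i < 416) : dg j i = dg i j := by
  rcases lt_trichotomy i j with h | h | h
  · exact Nat.eq_of_beq_eq_true (all_range (pC_all j hj) i h)
  · rw [h]
  · exact (Nat.eq_of_beq_eq_true (all_range (pC_all i hi) j h)).symm

theorem trace_sum : ∑ j ∈ range 416, dg j j = 7296 := by decide +kernel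

theorem row_expand (j : ℕ) (hj : j < 416) : rowP j = ∑ s ∈ range 416, dg j s * 262144 ^ s :=
  digit_expand 262144 416 (rowP j) (row_lt j hj)

theorem row_sum (j : ℕ) (hj : j < 416) : ∑ i ∈ range 416, dg j i = 1248 := by
  have h : rowP j % 262143 = 1248 := Nat.eq_of_beq_eq_true (all_range chkD1 j hj)
  have h1 : (∑ s ∈ range 416, dg j s * (262143 + 1) ^ s) % 262143
      = (∑ s ∈ range 416, dg j s) % 262143 := digit_sum_mod 262143 (dg j) 416
  have h2 : ∑ s ∈ range 416, dg j s * (262143 + 1) ^ s = rowP j := (row_expand j hj).symm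
  rw [h2, h] at h1
  have h3 : ∑ s ∈ range 416, dg j s < 262143 := by
    calc ∑ s ∈ range 416, dg j s ≤ ∑ _s ∈ range 416, 18 :=
          sum_le_sum fun i hi => dg_le j i hj (mem_range.1 hi)
      _ < 262143 := by simp
  rw [Nat.mod_eq_of_lt h3] at h1
  exact h1.symm

theorem prod_id (j s : ℕ) (hj : j < 416) (hs : s < 416) :
    ∑ i ∈ range 416, dg j i * dg i s = 96 * dg j s + 3456 := by
  have h : ∑ i ∈ range 416, dg j i * rowP i = 96 * rowP j + 3456 * allOnes :=
    Nat.eq_of_beq_eq_true (pB_all j hj)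
  have h1 : ∑ i ∈ range 416, dg j i * rowP i
      = ∑ s ∈ range 416, (∑ i ∈ range 416, dg j i * dg i s) * 262144 ^ s := by
    calc ∑ i ∈ range 416, dg j i * rowP i
        = ∑ i ∈ range 416, ∑ s ∈ range 416, dg j i * dg i s * 262144 ^ s := by
          refine sum_congr rfl fun i hi => ?_
          rw [row_expand i (mem_range.1 hi), mul_sum]
          refine sum_congr rfl fun s _ => ?_
          ring
      _ = ∑ s ∈ range 416, (∑ i ∈ range 416, dg j i * dg i s) * 262144 ^ s := by
          rw [sum_comm]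
          refine sum_congr rfl fun s _ => ?_
          rw [sum_mul]
  have h2 : 96 * rowP j + 3456 * allOnes
      = ∑ s ∈ range 416, (96 * dg j s + 3456) * 262144 ^ s := by
    rw [row_expand j hj, allOnes, mul_sum, mul_sum, ← sum_add_distrib]
    refine sum_congr rfl fun s _ => ?_
    ring
  refine digit_uniq 262144 416 _ _ ?_ ?_ (h1.symm.trans (h.trans h2)) s hs
  · intro s hs
    calc ∑ i ∈ range 416, dg j i * dg i s ≤ ∑ _i ∈ range 416, 18 * 18 := by
          refine sum_le_sum fun i hi => ?_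
          exact Nat.mul_le_mul (dg_le j i hj (mem_range.1 hi)) (dg_le i s (mem_range.1 hi) hs)
      _ < 262144 := by simp
  · intro s hs
    have := dg_le j s hj hs
    omega

/-- The real symmetric matrix `R`. -/
noncomputable def Rm (j i : Fin 416) : ℝ := (dg j i : ℝ) - 3

theorem Rm_symm (i j : Fin 416) : Rm i j = Rm j i := by
  unfold Rm
  rw [dg_symm i j i.2 j.2]

theorem Rm_idem (j s : Fin 416) : ∑ i, Rm j i * Rm s i = 96 * Rm j s := by
  unfold Rm
  rw [Fin.sum_univ_eq_sum_range (fun i => ((dg j i : ℝ) - 3) * ((dg s i : ℝ) - 3)) 416]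
  have h1 : ∑ i ∈ range 416, dg j i * dg s i = 96 * dg j s + 3456 := by
    rw [← prod_id j s j.2 s.2]
    refine sum_congr rfl fun i hi => ?_
    rw [dg_symm s i s.2 (mem_range.1 hi)]
  have h1' : ∑ i ∈ range 416, (dg j i : ℝ) * (dg s i : ℝ) = 96 * (dg j s : ℝ) + 3456 := by
    exact_mod_cast h1
  have h2 : ∑ i ∈ range 416, (dg j i : ℝ) = 1248 := by exact_mod_cast row_sum j j.2
  have h3 : ∑ i ∈ range 416, (dg s i : ℝ) = 1248 := by exact_mod_cast row_sum s s.2
  have h4 : ∀ i ∈ range 416, ((dg j i : ℝ) - 3) * ((dg s i : ℝ) - 3)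
      = (dg j i : ℝ) * (dg s i : ℝ) - 3 * (dg j i : ℝ) - 3 * (dg s i : ℝ) + 9 := by
    intro i _
    ring
  rw [sum_congr rfl h4, sum_add_distrib, sum_sub_distrib, sum_sub_distrib, ← mul_sum, ← mul_sum,
    h1', h2, h3]
  simp
  ring

theorem Rm_trace : ∑ j, Rm j j = 96 * (63 : ℕ) := by
  unfold Rm
  rw [Fin.sum_univ_eq_sum_range (fun i => ((dg i i : ℝ) - 3)) 416]
  have h2 : ∑ i ∈ range 416, (dg i i : ℝ) = 7296 := by exact_mod_cast trace_sum
  rw [sum_sub_distrib, h2]
  simp
  norm_num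

theorem dg_ge (a b : ℕ) (ha : a < 321) (hb : b < 321) : 2 ≤ dg a b := by
  have h := all_range (pE_all a ha) b hb
  rw [Bool.and_eq_true] at h
  exact Nat.le_of_ble_eq_true h.1

theorem dg_far (a b : ℕ) (ha : a < 321) (hb : b < 321) (hab : a ≠ b) (hadj : adjB a b = false) :
    dg a b = 2 := by
  have h := all_range (pE_all a ha) b hb
  rw [Bool.and_eq_true, Bool.or_eq_true, Bool.or_eq_true] at h
  rcases h.2 with (h1 | h1) | h1
  · exact absurd (Nat.eq_of_beq_eq_true h1) hab
  · rw [hadj] at h1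
    exact absurd h1 (by simp)
  · exact Nat.eq_of_beq_eq_true h1

theorem dg_diag (a : ℕ) (ha : a < 320) : dg a a = 18 :=
  Nat.eq_of_beq_eq_true (all_range chkE2 a ha)

theorem dg_diag' : dg 320 320 = 16 := by decide +kernel

end Vale.Agent.Lib.P052
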