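import Mathlib
open scoped RealInnerProductSpace

namespace Vale.Agent.Lib.P052

variable {E : Type*} [NormedAddCommGroup E] [InnerProductSpace ℝ E] [FiniteDimensional ℝ E]

lemma sum_dist_sq (S : Finset E) (f : E → ℝ) (h1 : ∑ e ∈ S, f e • e = 0) (h0 : ∑ e ∈ S, f e = 0)
    (y : E) : ∑ x ∈ S, f x * dist x y ^ 2 = ∑ x ∈ S, f x * ‖x‖ ^ 2 := by
  have h : ∀ x ∈ S, f x * dist x y ^ 2 = f x * ‖x‖ ^ 2 - 2 * ⟪f x • x, y⟫ + f x * ‖y‖ ^ 2 := by
    intro x _
    rw [dist_eq_norm, norm_sub_sq_real, real_inner_smul_left]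
    ring
  rw [Finset.sum_congr rfl h, Finset.sum_add_distrib, Finset.sum_sub_distrib, ← Finset.mul_sum,
    ← sum_inner, h1, ← Finset.sum_mul, h0]
  simp

lemma no_almost_simplex (S : Finset E) (hS : Module.finrank ℝ E + 1 < S.card) (D : ℝ)
    (hD : 0 < D) (a b : E) (ha : a ∈ S) (hb : b ∈ S) (hab : a ≠ b) (hle : dist a b ≤ D)
    (hall : ∀ x ∈ S, ∀ y ∈ S, x ≠ y → (x = a ∧ y = b) ∨ (x = b ∧ y = a) ∨ dist x y = D) :
    False := by
  classical
  obtain ⟨f, hf1, hf0, x0, hx0, hfx0⟩ :=
    Module.exists_nontrivial_relation_sum_zero_of_finrank_succ_lt_card hS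
  set C := ∑ x ∈ S, f x * ‖x‖ ^ 2 with hC
  have key := sum_dist_sq S f hf1 hf0
  set R := (S.erase a).erase b with hR
  set F := ∑ x ∈ R, f x with hF
  have hbS' : b ∈ S.erase a := Finset.mem_erase.2 ⟨hab.symm, hb⟩
  have split : ∀ g : E → ℝ, ∑ x ∈ S, g x = g a + (g b + ∑ x ∈ R, g x) := by
    intro g
    rw [← Finset.add_sum_erase S g ha, ← Finset.add_sum_erase (S.erase a) g hbS']
  have hsum0 : f a + (f b + F) = 0 := by rw [← split f]; exact hf0
  set s := dist a b ^ 2 with hs
  have hspos : 0 < s := by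
    have : 0 < dist a b := dist_pos.2 hab
    positivity
  have hsle : s ≤ D ^ 2 := pow_le_pow_left₀ dist_nonneg hle 2
  have memR : ∀ x ∈ R, x ∈ S ∧ x ≠ a ∧ x ≠ b := by
    intro x hx
    rw [hR, Finset.mem_erase, Finset.mem_erase] at hx
    exact ⟨hx.2.2, hx.2.1, hx.1⟩
  -- y = a
  have ea : f b * s + D ^ 2 * F = C := by
    have h := key a
    rw [split] at h
    have h2 : ∑ x ∈ R, f x * dist x a ^ 2 = D ^ 2 * F := by
      rw [hF, Finset.mul_sum]
      apply Finset.sum_congr rfl
      intro x hx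
      obtain ⟨hxS, hxa, hxb⟩ := memR x hx
      rcases hall x hxS a ha hxa with h | h | h
      · exact absurd h.1 hxa
      · exact absurd h.1 hxb
      · rw [h]; ring
    rw [h2, dist_self, dist_comm b a] at h
    linarith
  have eb : f a * s + D ^ 2 * F = C := by
    have h := key b
    rw [split] at h
    have h2 : ∑ x ∈ R, f x * dist x b ^ 2 = D ^ 2 * F := by
      rw [hF, Finset.mul_sum]
      apply Finset.sum_congr rfl
      intro x hx
      obtain ⟨hxS, hxa, hxb⟩ := memR x hx
      rcases hall x hxS b hb hxb with h | h | h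
      · exact absurd h.1 hxa
      · exact absurd h.1 hxb
      · rw [h]; ring
    rw [h2, dist_self] at h
    linarith
  have eR : ∀ y ∈ R, - D ^ 2 * f y = C := by
    intro y hy
    obtain ⟨hyS, hya, hyb⟩ := memR y hy
    have h := key y
    rw [← Finset.add_sum_erase S _ hyS, dist_self] at h
    have h2 : ∑ x ∈ S.erase y, f x * dist x y ^ 2 = D ^ 2 * ∑ x ∈ S.erase y, f x := by
      rw [Finset.mul_sum]
      apply Finset.sum_congr rfl
      intro x hx
      rw [Finset.mem_erase] at hx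
      rcases hall x hx.2 y hyS hx.1 with h | h | h
      · exact absurd h.2 hyb
      · exact absurd h.2 hya
      · rw [h]; ring
    have h3 : f y + ∑ x ∈ S.erase y, f x = 0 := by
      rw [Finset.add_sum_erase S f hyS]; exact hf0
    rw [h2] at h
    have : ∑ x ∈ S.erase y, f x = - f y := by linarith
    rw [this] at h
    linarith
  have hfab : f a = f b := by
    have : s * (f a - f b) = 0 := by linarith
    rcases mul_eq_zero.1 this with h | h
    · exact absurd h hspos.ne'
    · linarith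
  have hsumR : - D ^ 2 * F = R.card * C := by
    rw [hF, Finset.mul_sum, Finset.sum_congr rfl eR]
    simp
  have hD2 : 0 < D ^ 2 := by positivity
  have hcard : (0 : ℝ) ≤ R.card := Nat.cast_nonneg _
  have hβ : f a = 0 := by
    have hF2 : F = -2 * f a := by linarith
    have hC2 : C = f a * (s - 2 * D ^ 2) := by rw [← eb, hF2]; ring
    rw [hF2, hC2] at hsumR
    have : f a * (2 * D ^ 2 + R.card * (2 * D ^ 2 - s)) = 0 := by linarith
    rcases mul_eq_zero.1 this with h | h
    · exact h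
    · exfalso
      have : 0 ≤ (R.card : ℝ) * (2 * D ^ 2 - s) := mul_nonneg hcard (by linarith)
      linarith
  have hC0 : C = 0 := by
    have hF2 : F = -2 * f a := by linarith
    rw [← eb, hF2, hβ]; ring
  apply hfx0
  by_cases hxa : x0 = a
  · rw [hxa, hβ]
  by_cases hxb : x0 = b
  · rw [hxb, ← hfab, hβ]
  have hxR : x0 ∈ R := by
    rw [hR, Finset.mem_erase, Finset.mem_erase]
    exact ⟨hxb, hxa, hx0⟩
  have := eR x0 hxR
  rw [hC0] at this
  have h3 : D ^ 2 * f x0 = 0 := by linarith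
  rcases mul_eq_zero.1 h3 with h | h
  · exact absurd h hD2.ne'
  · exact h

end Vale.Agent.Lib.P052
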