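import Mathlib
import Vale.Agent.Lib.P052.Config

namespace Vale.Agent.Lib.P052

open Finset

/-- The configuration of `321` points of `ℝ^63`: all distances are at most `D`, and indices that
are not adjacent are at distance exactly `D`. -/
theorem config : ∃ (Z : Fin 321 → EuclideanSpace ℝ (Fin 63)) (D : ℝ), 0 < D ∧
    (∀ a b, dist (Z a) (Z b) ≤ D) ∧
    (∀ a b : Fin 321, a ≠ b → adjB a b = false → dist (Z a) (Z b) = D) := by
  obtain ⟨P, hP⟩ := exists_points (m := 63) Rm 96 (by norm_num) Rm_symm Rm_idem Rm_trace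
  set t : ℝ := (Real.sqrt 222 - 1) / 13 with ht
  have hs : Real.sqrt 222 ^ 2 = 222 := Real.sq_sqrt (by norm_num)
  have hs1 : 1 < Real.sqrt 222 := by
    have h1 : Real.sqrt 1 < Real.sqrt 222 := Real.sqrt_lt_sqrt (by norm_num) (by norm_num)
    simpa using h1
  have ht0 : 0 < t := by
    rw [ht]
    apply div_pos <;> linarith
  have hteq : 13 * t ^ 2 + 2 * t = 17 := by
    rw [ht]
    field_simp
    nlinarith [hs]
  set emb : Fin 321 → Fin 416 := Fin.castLE (by norm_num) with hemb
  set τ : Fin 321 → ℝ := fun a => if a.val < 320 then 1 else t with hτ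
  set r : Fin 321 → Fin 321 → ℝ := fun a b => Rm (emb a) (emb b) with hr
  have hrval : ∀ a b : Fin 321, r a b = (dg a b : ℝ) - 3 := fun a b => rfl
  have hr_ge : ∀ a b, -1 ≤ r a b := by
    intro a b
    have h : (2 : ℝ) ≤ (dg a b : ℝ) := by exact_mod_cast dg_ge a b a.2 b.2
    rw [hrval]
    linarith
  have hr_d1 : ∀ a : Fin 321, a.val < 320 → r a a = 15 := by
    intro a ha
    rw [hrval, dg_diag a ha]
    norm_num
  have hr_d2 : ∀ a : Fin 321, ¬ a.val < 320 → r a a = 13 := by
    intro a ha
    have h : a.val = 320 := by have := a.2; omega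
    rw [hrval, h, dg_diag']
    norm_num
  have hr_far : ∀ a b : Fin 321, a ≠ b → adjB a b = false → r a b = -1 := by
    intro a b hab hadj
    rw [hrval, dg_far a b a.2 b.2 (fun h => hab (Fin.ext h)) hadj]
    norm_num
  have hsq : ∀ a b, dist (τ a • P (emb a)) (τ b • P (emb b)) ^ 2
      = 96 * (τ a ^ 2 * r a a + τ b ^ 2 * r b b - 2 * τ a * τ b * r a b) := by
    intro a b
    rw [dist_eq_norm, ← real_inner_self_eq_norm_sq, inner_sub_left, inner_sub_right,
      inner_sub_right]
    simp only [inner_smul_left, inner_smul_right, hP, conj_trivial]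
    rw [Rm_symm (emb b) (emb a)]
    simp only [hr]
    ring
  have hmain : ∀ a b, a ≠ b → dist (τ a • P (emb a)) (τ b • P (emb b)) ^ 2 ≤ 3072 ∧
      (r a b = -1 → dist (τ a • P (emb a)) (τ b • P (emb b)) ^ 2 = 3072) := by
    intro a b hab
    rw [hsq]
    have hge := hr_ge a b
    by_cases ha : a.val < 320 <;> by_cases hb : b.val < 320
    · have e1 : τ a = 1 := by simp [hτ, ha]
      have e2 : τ b = 1 := by simp [hτ, hb]
      rw [e1, e2, hr_d1 a ha, hr_d1 b hb]
      constructor
      · linarith
      · intro h; rw [h]; norm_num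
    · have e1 : τ a = 1 := by simp [hτ, ha]
      have e2 : τ b = t := by simp [hτ, hb]
      rw [e1, e2, hr_d1 a ha, hr_d2 b hb]
      constructor
      · have : 0 ≤ t * (1 + r a b) := mul_nonneg ht0.le (by linarith)
        nlinarith
      · intro h; rw [h]; nlinarith
    · have e1 : τ a = t := by simp [hτ, ha]
      have e2 : τ b = 1 := by simp [hτ, hb]
      rw [e1, e2, hr_d2 a ha, hr_d1 b hb]
      constructor
      · have : 0 ≤ t * (1 + r a b) := mul_nonneg ht0.le (by linarith)
        nlinarith
      · intro h; rw [h]; nlinarith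
    · exfalso
      apply hab
      apply Fin.ext
      have := a.2
      have := b.2
      omega
  refine ⟨fun a => τ a • P (emb a), Real.sqrt 3072, by positivity, ?_, ?_⟩
  · intro a b
    by_cases hab : a = b
    · subst hab
      simp
    · exact Real.le_sqrt_of_sq_le (hmain a b hab).1
  · intro a b hab hadj
    have h := (hmain a b hab).2 (hr_far a b hab hadj)
    show dist (τ a • P (emb a)) (τ b • P (emb b)) = Real.sqrt 3072
    rw [← h, Real.sqrt_sq dist_nonneg]

/-- Among any six indices two are at distance `D`. -/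
theorem six_far (s : Finset (Fin 321)) (hs : 5 < s.card) :
    ∃ a ∈ s, ∃ b ∈ s, a ≠ b ∧ adjB a b = false := by
  classical
  obtain ⟨u, hu, hcard⟩ := Finset.exists_subset_card_eq (s := s) (n := 6) (by omega)
  by_contra hcon
  have hcl : IsCl (u.image Fin.val) := by
    intro a ha b hb hab
    rw [Finset.mem_image] at ha hb
    obtain ⟨a', ha', rfl⟩ := ha
    obtain ⟨b', hb', rfl⟩ := hb
    by_contra h
    apply hcon
    refine ⟨a', hu ha', b', hu hb', fun h' => hab (by rw [h']), ?_⟩
    simpa using h
  refine no_six top_all (u.image Fin.val) ?_ hcl ?_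
  · intro i hi
    rw [Finset.mem_image] at hi
    obtain ⟨a, _, rfl⟩ := hi
    exact a.2
  · rw [Finset.card_image_of_injective _ Fin.val_injective, hcard]

end Vale.Agent.Lib.P052
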